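import Vale.Agent.P269.H728.CITheory

/-!
# P269: the Virasoro conjecture for complete intersections of general type

`X h` is the cohomology of a smooth complete intersection of multidegree `deg` in `ℙ^N`, of
dimension `D = N - c`, and `corr h Ng` are its descendant Gromov-Witten invariants, in the case
`K_X = κ h`, `κ = ∑ d_j - N - 1 > D - 3 ≥ 0`.
-/

namespace Vale.Agent.Results.P269.GeneralType

open Vale.Agent.P269 CI

theorem result (N : ℕ) (deg : List ℕ) (h : Ok N deg) (hD : 3 ≤ N - deg.length)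
    (hdeg : N + (N - deg.length) ≤ deg.sum + 1) :
    -- `X h` has the Hodge numbers of a complete intersection
    IsCompleteIntersection N deg (X h) ∧
    -- `L_k Z = 0` for all `k = K - 1 ≥ -1`
    (∀ (Ng : ℕ → ℂ) (K : ℕ) (n : ℤ) (d : ℕ) (l : List (X h).Ins),
      (X h).LZ (corr h Ng) K n d l = 0) ∧
    -- `corr` is the only system of invariants with the standard properties
    (∀ (B : Type) [AddCommMonoid B] [DecidableEq B] [Finset.HasAntidiagonal B]
      (G : GWTheory (X h) B) (H : B →+ ℕ), (∀ d, H d = 0 → d = 0) →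
      (∀ d, G.c1 d = ((N : ℤ) + 1 - deg.sum) * H d) →
      G.c1cD = ((N : ℂ) + 1 - (deg.sum : ℕ)) * (hcD N deg : ℂ) →
      ∀ (g : ℕ) (d : B) (l : List (X h).Ins), (N - deg.length = 3 ∨ ¬ (g = 0 ∧ d = 0)) →
        G.corr g d l = corr h (fun g => G.corr g 0 []) g (H d) l) :=
  ⟨isCI h, fun Ng K n d l => LZ_corr h hD (by omega) Ng K n d l,
    fun B _ _ _ G H hH hc1 hc1cD g d l hgd => corr_unique h hD hdeg G H hH hc1 hc1cD g d l hgd⟩

end Vale.Agent.Results.P269.GeneralType
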