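import Vale.Agent.P269.H727.Main
import Vale.Agent.P269.H727.LWood
import Vale.Agent.P269.H727.Exp4
import Vale.Agent.P269.H728.Genus0

/-!
# P269: the Virasoro constraints for complete intersections

`X` is the cohomology of a smooth complete intersection of multidegree `deg` in `ℙ^N`, of
dimension `X.D ≥ 2`, and `G` its descendant Gromov-Witten invariants; `H d` is the degree of a
curve class `d` in `ℙ^N`, so `c_1(TX)·d = (N+1-∑ d_j) H(d)`.
`G.Z n d l` is the coefficient of `ħ^n Q^d t^l` in `Z = exp(∑_g ħ^{g-1} F_g)`, `G.LZ (k+1) n d l`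
that in `L_k Z`, and `G.virasoro (k+1) g d l` that of `ħ^{g-1} Q^d t^l` in `Z⁻¹ L_k Z`.
-/

namespace Vale.Agent.Results.P269.NonFano

open Vale.Agent.P269 Cohomology GWTheory

theorem lowDegree {N : ℕ} {deg : List ℕ} {X : Cohomology} (hX : IsCompleteIntersection N deg X)
    (hD : 2 ≤ X.D) : X.LowDegree := by
  intro a ha
  have h1 : X.p a = X.q a := by
    by_contra h
    have := hX.lefschetz a h
    omega
  have h2 : X.p a = 0 := by omega
  have h3 := hX.ambient 0 (Nat.zero_le _) (by omega)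
  obtain ⟨c, hc⟩ := Finset.card_eq_one.1 h3
  have h4 : a ∈ ({c} : Finset X.I) := by
    rw [← hc, Finset.mem_filter]
    exact ⟨Finset.mem_univ _, h2, by omega⟩
  have h5 : X.one ∈ ({c} : Finset X.I) := by
    rw [← hc, Finset.mem_filter]
    exact ⟨Finset.mem_univ _, X.p_one, X.q_one⟩
  rw [Finset.mem_singleton] at h4 h5
  rw [h4, h5]

theorem result (N : ℕ) (deg : List ℕ) (X : Cohomology) (hX : IsCompleteIntersection N deg X)
    (hD : 2 ≤ X.D) (B : Type) [AddCommMonoid B] [DecidableEq B] [Finset.HasAntidiagonal B]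
    (G : GWTheory X B) (H : B →+ ℕ) (hH : ∀ d, H d = 0 → d = 0)
    (hc1 : ∀ d, G.c1 d = ((N : ℤ) + 1 - deg.sum) * H d)
    (hc1cD : G.c1cD = ((N : ℂ) + 1 - (deg.sum : ℕ)) * (hcD N deg : ℂ)) :
    -- (1) the full Virasoro conjecture `L_k Z = 0`, `k = K - 1 ≥ -1`, if `X` is not Fano and
    -- `dim X ≥ 3`
    (3 ≤ X.D → N + 1 ≤ deg.sum →
      ∀ (K : ℕ) (n : ℤ) (d : B) (l : List X.Ins), G.LZ K n d l = 0) ∧
    -- (2) for every `X`, the numbers `G.virasoro K g d l` are the coefficients of `Z⁻¹ L_k Z`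
    (∀ (K : ℕ) (n : ℤ) (d : B) (l : List X.Ins), G.LZ K n d l =
      ∑ᶠ g : ℕ, ∑ dd ∈ Finset.HasAntidiagonal.antidiagonal d,
        X.splitSum (fun l₁ l₂ => G.virasoro K g dd.1 l₁ * G.Z (n + 1 - g) dd.2 l₂) l) ∧
    -- (3) for every `X`, they vanish for `L_{-1}`, `L_0`; in genus `0`; and for all classes `d`
    -- and genera `g ≥ 1` with `c_1·d ≤ (g-1)(D-3)`
    (∀ (K g : ℕ) (d : B) (l : List X.Ins),
      (K ≤ 1 ∨ g = 0 ∨ ((N : ℤ) + 1 - deg.sum) * H d ≤ ((g : ℤ) - 1) * ((X.D : ℤ) - 3)) →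
      G.virasoro K g d l = 0) ∧
    -- (4) for every `X` and `g ≥ 1`: the constraints `L_k` for all `k` in genus `g` and class `d`
    -- follow from `L_k` with `1 ≤ k ≤ c_1·d + (1-g)(D-3)` on insertions without `τ_0(1)` of total
    -- weight `∑ (m + (p+q)/2 - 1) = c_1·d + (1-g)(D-3) - k`
    (∀ (g : ℕ) (d : B), g ≠ 0 →
      (∀ K : ℕ, 2 ≤ K → (K : ℤ) - 1 ≤ G.vdim g d → ∀ l : List X.Ins, (0, X.one) ∉ l →
        X.wts l = 2 * (G.vdim g d - (K - 1)) → G.virasoro K g d l = 0) →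
      ∀ (K : ℕ) (l : List X.Ins), G.virasoro K g d l = 0) := by
  have hX1 := lowDegree hX hD
  have hLW : X.strμ2 = X.D * X.χ / 12 + G.c1cD / 6 := by
    rw [LW.libgober_wood hX (by omega), hc1cD]
  have h2 : ∀ (K g : ℕ) (d : B) (l : List X.Ins), (K ≤ 1 ∨ g = 0 ∨
      ((N : ℤ) + 1 - deg.sum) * H d ≤ ((g : ℤ) - 1) * ((X.D : ℤ) - 3)) →
      G.virasoro K g d l = 0 := by
    intro K g d l h
    by_cases hg : g = 0
    · subst hg
      exact G.virasoro_genus_zero K d l
    · rcases h with h | h | h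
      · interval_cases K
        · exact G.virasoro_zero g d l
        · exact G.virasoro_one hLW g d l
      · exact absurd h hg
      · refine G.virasoro_eq_zero_of_vdim_nonpos hX1 hLW hg d ?_ K l
        unfold GWTheory.vdim
        rw [hc1]
        linarith
  refine ⟨fun hD3 hdeg K => G.LZ_eq_zero hH fun g d l => h2 K g d l ?_, G.LZ_eq hH, h2,
    fun g d hg h => G.virasoro_eq_zero_of_initial hX1 hg d (G.virasoro_one hLW g d) h⟩
  by_cases hg : g = 0
  · exact Or.inr (Or.inl hg)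
  · refine Or.inr (Or.inr ?_)
    have h3 : ((N : ℤ) + 1 - deg.sum) * H d ≤ 0 :=
      mul_nonpos_of_nonpos_of_nonneg (by
        have : (N : ℤ) + 1 ≤ ((deg.sum : ℕ) : ℤ) := by exact_mod_cast hdeg
        linarith) (by positivity)
    have h4 : (0 : ℤ) ≤ (g - 1) * (X.D - 3) := mul_nonneg (by omega) (by omega)
    linarith

end Vale.Agent.Results.P269.NonFano
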